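import Vale.Agent.P153.R2.UNIQ.Sub
import Vale.Agent.P167.BR.Join
import Vale.Agent.P167.BVP.Poly
import Vale.Agent.P167.CA.Core
import Vale.Agent.P167.FK.Sym
import Vale.Agent.P167.Final.Question
import Vale.Agent.P167.Fjord.Defs2
import Vale.Agent.P167.Fjord.Gate
import Vale.Agent.P167.Fjord.Join
import Vale.Agent.P167.H135.TipArm
import Vale.Agent.P167.H161.ArmU
import Vale.Agent.P167.H161.CellD
import Vale.Agent.P167.H161.Det
import Vale.Agent.P167.H166N.Defs
import Vale.Agent.P167.H166N.Tube
import Vale.Agent.P167.H192.TA.Arc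
import Vale.Agent.P167.H199.CutBkw
import Vale.Agent.P167.H318.Co
import Vale.Agent.P167.H318.PA
import Vale.Agent.P167.H327.Div
import Vale.Agent.P167.H327.Half
import Vale.Agent.P167.H327.Ori
import Vale.Agent.P167.H365.NDet2
import Vale.Agent.P167.H411.Asym6
import Vale.Agent.P167.H411.B7.Main
import Vale.Agent.P167.H446.Exap
import Vale.Agent.P167.H446.NotchB
import Vale.Agent.P167.H531.Cont
import Vale.Agent.P167.H531.Sq
import Vale.Agent.P167.H542.Step
import Vale.Agent.P167.H542.Tr
import Vale.Agent.P167.H542.Wt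
import Vale.Agent.P167.H558.Stop3
import Vale.Agent.P167.H632.Esc
import Vale.Agent.P167.H634.AvoQ
import Vale.Agent.P167.H638.L1
import Vale.Agent.P167.H638.YG4
import Vale.Agent.P167.H662.TipPot
import Vale.Agent.P167.H704.RecDefs
import Vale.Agent.P167.H72.Land
import Vale.Agent.P167.H756.Small
import Vale.Agent.P167.H825.Dirs
import Vale.Agent.P167.H825.OsLin
import Vale.Agent.P167.H871.Dom2
import Vale.Agent.P167.H871.Hole
import Vale.Agent.P167.H871.WindL
import Vale.Agent.P167.H945.Seg
import Vale.Agent.P167.SLE.Comp6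
import Vale.Agent.P167.SLE.Supp

/-!
# P167: first layer of the closure of the hand-in `PercolationSLE6`

Only imports: this file splits the build of the hand-ins of P167 into balanced parts.
-/
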